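import Mathlib

/-!
P160, job SS-1: the abstract lazy chain lemma behind the Sarkozy-Szemeredi type bound.
A nonnegative kernel `q` on a finite set whose moves strictly increase `f`, change the size
function `sz` by `0` or `+1`, and have `in - out = (sz - n / 2) / n`, exits every level set
of `f` with total out-weight at most `10 * card / sqrt n` on the states of size at least
`n / 2 - sqrt n`.
-/

namespace Vale.Agent.Lib.P160.H34

open Finset

/-- The lower profile of the lazy chain. -/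
noncomputable def chainPsi (N : ℝ) (k : ℕ) (t : ℝ) : ℝ :=
  Real.exp ((k : ℝ) * (t - N / 2) / N ^ 2 - (k : ℝ) * ((k : ℝ) - 1) / (4 * N ^ 3)
    - (k : ℝ) / N ^ 2)

theorem chainPsi_zero (N t : ℝ) : chainPsi N 0 t = 1 := by simp [chainPsi]

theorem chainPsi_pos (N : ℝ) (k : ℕ) (t : ℝ) : 0 < chainPsi N k t := Real.exp_pos _

theorem chainPsi_pred {N : ℝ} (hN : 0 < N) (k : ℕ) (t : ℝ) :
    chainPsi N k (t - 1) = chainPsi N k t * Real.exp (-((k : ℝ) / N ^ 2)) := by
  unfold chainPsi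
  rw [← Real.exp_add]
  congr 1
  field_simp
  ring

theorem chainPsi_succ {N : ℝ} (hN : 0 < N) (k : ℕ) (t : ℝ) :
    chainPsi N (k + 1) t = chainPsi N k t *
      Real.exp ((t - N / 2) / N ^ 2 - (k : ℝ) / (2 * N ^ 3) - 1 / N ^ 2) := by
  unfold chainPsi
  rw [← Real.exp_add]
  congr 1
  push_cast
  field_simp
  ring

theorem sqrt_ge_four {N : ℝ} (hN : 16 ≤ N) : 4 ≤ Real.sqrt N := by
  have h : Real.sqrt 16 = 4 := by
    rw [show (16 : ℝ) = 4 ^ 2 by norm_num]
    exact Real.sqrt_sq (by norm_num)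
  rw [← h]
  exact Real.sqrt_le_sqrt hN

theorem chainPsi_step {N : ℝ} (hN : 16 ≤ N) (k : ℕ) (hk : (k : ℝ) ≤ N * Real.sqrt N) (t : ℝ)
    (ht0 : 0 ≤ t) (htN : t ≤ N) :
    chainPsi N (k + 1) t ≤ chainPsi N k t * (1 + (t - N / 2) / N ^ 2)
      - 1 / (2 * N) * (chainPsi N k t - chainPsi N k (t - 1)) := by
  have hN0 : 0 < N := by linarith
  have hs := sqrt_ge_four hN
  have hss : Real.sqrt N * Real.sqrt N = N := Real.mul_self_sqrt hN0.le
  have hk0 : (0 : ℝ) ≤ k := Nat.cast_nonneg k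
  rw [chainPsi_succ hN0, chainPsi_pred hN0]
  have hψ := chainPsi_pos N k t
  have he1 : 1 - Real.exp (-((k : ℝ) / N ^ 2)) ≤ (k : ℝ) / N ^ 2 := by
    have h := Real.add_one_le_exp (-((k : ℝ) / N ^ 2))
    linarith
  have hx_hi : (t - N / 2) / N ^ 2 ≤ 1 / (2 * N) := by
    rw [div_le_div_iff₀ (by positivity) (by positivity)]
    nlinarith
  have hx_lo : -(1 / (2 * N)) ≤ (t - N / 2) / N ^ 2 := by
    rw [le_div_iff₀ (by positivity)]
    have h : -(1 / (2 * N)) * N ^ 2 = -(N / 2) := by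
      field_simp
    rw [h]
    linarith
  have hd1 : (k : ℝ) / (2 * N ^ 3) ≤ 1 / (8 * N) := by
    rw [div_le_div_iff₀ (by positivity) (by positivity)]
    have h4 : 4 * (k : ℝ) ≤ N * N := by
      have h5 : 4 * (N * Real.sqrt N) ≤ N * (Real.sqrt N * Real.sqrt N) := by nlinarith
      rw [hss] at h5
      linarith
    nlinarith [mul_nonneg hN0.le hN0.le]
  have hd1' : 0 ≤ (k : ℝ) / (2 * N ^ 3) := by positivity
  have hd2 : 1 / N ^ 2 ≤ 1 / (16 * N) := by
    rw [div_le_div_iff₀ (by positivity) (by positivity)]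
    nlinarith
  have hd2' : 0 ≤ 1 / N ^ 2 := by positivity
  have h8 : 1 / (8 * N) = 1 / (2 * N) / 4 := by field_simp; norm_num
  have h16 : 1 / (16 * N) = 1 / (2 * N) / 8 := by field_simp; norm_num
  have hNN : 1 / (2 * N) = 1 / N / 2 := by field_simp
  have h1N : 0 < 1 / N := by positivity
  have hy1 : |(t - N / 2) / N ^ 2 - (k : ℝ) / (2 * N ^ 3) - 1 / N ^ 2| ≤ 1 / N := by
    rw [abs_le]
    constructor <;> linarith
  have h1N1 : 1 / N ≤ 1 := by
    rw [div_le_one hN0]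
    linarith
  have hexp : Real.exp ((t - N / 2) / N ^ 2 - (k : ℝ) / (2 * N ^ 3) - 1 / N ^ 2)
      ≤ 1 + ((t - N / 2) / N ^ 2 - (k : ℝ) / (2 * N ^ 3) - 1 / N ^ 2)
        + ((t - N / 2) / N ^ 2 - (k : ℝ) / (2 * N ^ 3) - 1 / N ^ 2) ^ 2 := by
    have h := Real.abs_exp_sub_one_sub_id_le (le_trans hy1 h1N1)
    have h' := (abs_le.1 h).2
    linarith
  have hy2 : ((t - N / 2) / N ^ 2 - (k : ℝ) / (2 * N ^ 3) - 1 / N ^ 2) ^ 2 ≤ 1 / N ^ 2 := by
    have h9 : (1 : ℝ) / N ^ 2 = (1 / N) ^ 2 := by ring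
    rw [← sq_abs]
    exact le_trans (pow_le_pow_left₀ (abs_nonneg _) hy1 2) (le_of_eq h9.symm)
  have key : Real.exp ((t - N / 2) / N ^ 2 - (k : ℝ) / (2 * N ^ 3) - 1 / N ^ 2)
      ≤ (1 + (t - N / 2) / N ^ 2)
        - 1 / (2 * N) * (1 - Real.exp (-((k : ℝ) / N ^ 2))) := by
    have h1 : 1 / (2 * N) * (1 - Real.exp (-((k : ℝ) / N ^ 2)))
        ≤ 1 / (2 * N) * ((k : ℝ) / N ^ 2) :=
      mul_le_mul_of_nonneg_left he1 (by positivity)
    have h2 : 1 / (2 * N) * ((k : ℝ) / N ^ 2) = (k : ℝ) / (2 * N ^ 3) := by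
      field_simp
    linarith
  calc chainPsi N k t * Real.exp ((t - N / 2) / N ^ 2 - (k : ℝ) / (2 * N ^ 3) - 1 / N ^ 2)
      ≤ chainPsi N k t * ((1 + (t - N / 2) / N ^ 2)
        - 1 / (2 * N) * (1 - Real.exp (-((k : ℝ) / N ^ 2)))) :=
        mul_le_mul_of_nonneg_left key hψ.le
    _ = _ := by ring

theorem chainPsi_fifth {N : ℝ} (hN : 16 ≤ N) (k : ℕ) (hk : (k : ℝ) ≤ N * Real.sqrt N) (t : ℝ)
    (ht : N / 2 - Real.sqrt N ≤ t) : 1 / 5 ≤ chainPsi N k t := by
  have hN0 : 0 < N := by linarith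
  have hs := sqrt_ge_four hN
  have hss : Real.sqrt N * Real.sqrt N = N := Real.mul_self_sqrt hN0.le
  have hk0 : (0 : ℝ) ≤ k := Nat.cast_nonneg k
  have hs0 : (0 : ℝ) ≤ Real.sqrt N := by linarith
  have hexp : Real.exp (-(3 / 2)) ≤ chainPsi N k t := by
    unfold chainPsi
    apply Real.exp_le_exp.2
    have hks : (k : ℝ) * Real.sqrt N ≤ N * N := by
      have h := mul_le_mul_of_nonneg_right hk hs0
      rw [mul_assoc, hss] at h
      exact h
    have h1 : -1 ≤ (k : ℝ) * (t - N / 2) / N ^ 2 := by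
      rw [le_div_iff₀ (by positivity)]
      have h : (k : ℝ) * (-Real.sqrt N) ≤ (k : ℝ) * (t - N / 2) :=
        mul_le_mul_of_nonneg_left (by linarith) hk0
      nlinarith
    have hk2 : (k : ℝ) * k ≤ (N * Real.sqrt N) * (N * Real.sqrt N) :=
      mul_le_mul hk hk hk0 (by positivity)
    have hk2' : (N * Real.sqrt N) * (N * Real.sqrt N) = N ^ 3 := by
      calc (N * Real.sqrt N) * (N * Real.sqrt N)
          = N * N * (Real.sqrt N * Real.sqrt N) := by ring
        _ = N ^ 3 := by rw [hss]; ring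
    have h2 : (k : ℝ) * ((k : ℝ) - 1) / (4 * N ^ 3) ≤ 1 / 4 := by
      rw [div_le_iff₀ (by positivity)]
      nlinarith
    have h3 : (k : ℝ) / N ^ 2 ≤ 1 / 4 := by
      rw [div_le_iff₀ (by positivity)]
      have h4 : 4 * (N * Real.sqrt N) ≤ N * (Real.sqrt N * Real.sqrt N) := by nlinarith
      rw [hss] at h4
      nlinarith
    linarith
  have h5 : (1 : ℝ) / 5 ≤ Real.exp (-(3 / 2)) := by
    rw [Real.exp_neg, one_div, inv_le_inv₀ (by norm_num) (Real.exp_pos _)]
    have he := Real.exp_one_lt_d9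
    have h1 : Real.exp (3 / 2) * Real.exp (3 / 2) = Real.exp 1 * Real.exp 1 * Real.exp 1 := by
      rw [← Real.exp_add, ← Real.exp_add, ← Real.exp_add]
      norm_num
    have hpos := Real.exp_pos (3 / 2 : ℝ)
    have hpos1 := Real.exp_pos (1 : ℝ)
    have ha2 : Real.exp 1 * Real.exp 1 < 2.72 * 2.72 := by nlinarith
    have ha3 : Real.exp 1 * Real.exp 1 * Real.exp 1 < 2.72 * 2.72 * 2.72 := by
      nlinarith [mul_pos hpos1 hpos1]
    have h6 : Real.exp (3 / 2) * Real.exp (3 / 2) < 25 := by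
      rw [h1]
      have h7 : (2.72 : ℝ) * 2.72 * 2.72 < 25 := by norm_num
      linarith
    exact le_of_lt (by nlinarith)
  linarith

/-- The lazy chain started from the counting measure. -/
noncomputable def chainU {Ω : Type} [Fintype Ω] (q : Ω → Ω → ℝ) (N : ℝ) : ℕ → Ω → ℝ
  | 0 => fun _ => 1
  | k + 1 => fun S => chainU q N k S * (1 - (∑ S', q S S') / N)
      + 1 / N * ∑ S', q S' S * chainU q N k S'

theorem chainU_zero {Ω : Type} [Fintype Ω] (q : Ω → Ω → ℝ) (N : ℝ) (S : Ω) :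
    chainU q N 0 S = 1 := rfl

theorem chainU_succ {Ω : Type} [Fintype Ω] (q : Ω → Ω → ℝ) (N : ℝ) (k : ℕ) (S : Ω) :
    chainU q N (k + 1) S = chainU q N k S * (1 - (∑ S', q S S') / N)
      + 1 / N * ∑ S', q S' S * chainU q N k S' := rfl

theorem chainU_nonneg {Ω : Type} [Fintype Ω] (q : Ω → Ω → ℝ) (N : ℝ) (hN : 0 < N)
    (hq0 : ∀ S S', 0 ≤ q S S') (hout : ∀ S, ∑ S', q S S' ≤ N) :
    ∀ (k : ℕ) (S : Ω), 0 ≤ chainU q N k S := by
  intro k
  induction k with
  | zero =>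
    intro S
    rw [chainU_zero]
    exact zero_le_one
  | succ k ih =>
    intro S
    rw [chainU_succ]
    have h1 : 0 ≤ 1 - (∑ S', q S S') / N := sub_nonneg.2 ((div_le_one hN).2 (hout S))
    have h2 : 0 ≤ 1 / N := by positivity
    exact add_nonneg (mul_nonneg (ih S) h1)
      (mul_nonneg h2 (Finset.sum_nonneg (fun S' _ => mul_nonneg (hq0 S' S) (ih S'))))

theorem chainU_ge {Ω : Type} [Fintype Ω] [DecidableEq Ω] (q : Ω → Ω → ℝ) (sz : Ω → ℕ) (n : ℕ)
    (hn : 16 ≤ n) (hq0 : ∀ S S', 0 ≤ q S S')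
    (hsz : ∀ S' S, q S' S ≠ 0 → sz S' = sz S ∨ sz S' + 1 = sz S)
    (hent : ∀ S, ∑ S' ∈ univ.filter (fun S' => sz S' + 1 = sz S), q S' S ≤ 1 / 2)
    (hbal : ∀ S, ∑ S', q S' S - ∑ S', q S S' = ((sz S : ℝ) - n / 2) / n)
    (hout : ∀ S, ∑ S', q S S' ≤ n) (hszn : ∀ S, sz S ≤ n) :
    ∀ k : ℕ, (k : ℝ) ≤ (n : ℝ) * Real.sqrt n → ∀ S, chainPsi n k (sz S) ≤ chainU q n k S := by
  have hN : (16 : ℝ) ≤ n := by exact_mod_cast hn
  have hN0 : (0 : ℝ) < n := by linarith
  intro k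
  induction k with
  | zero =>
    intro _ S
    rw [chainPsi_zero, chainU_zero]
  | succ k ih =>
    intro hk S
    have hk' : (k : ℝ) ≤ (n : ℝ) * Real.sqrt n := by
      push_cast at hk
      linarith
    have ih' := ih hk'
    have hszS : ((sz S : ℕ) : ℝ) ≤ n := by exact_mod_cast hszn S
    have hstep := chainPsi_step hN k hk' (sz S) (Nat.cast_nonneg _) hszS
    rw [chainU_succ]
    have hPP' : chainPsi (n : ℝ) k ((sz S : ℝ) - 1) ≤ chainPsi (n : ℝ) k (sz S) := by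
      rw [chainPsi_pred hN0]
      have h0 : (0 : ℝ) ≤ (k : ℝ) / (n : ℝ) ^ 2 := by positivity
      have h1 : Real.exp (-((k : ℝ) / (n : ℝ) ^ 2)) ≤ 1 := Real.exp_le_one_iff.2 (by linarith)
      exact mul_le_of_le_one_right (chainPsi_pos _ _ _).le h1
    have hout1 : 0 ≤ 1 - (∑ S', q S S') / (n : ℝ) :=
      sub_nonneg.2 ((div_le_one hN0).2 (hout S))
    have hA : chainPsi (n : ℝ) k (sz S) * (1 - (∑ S', q S S') / n)
        ≤ chainU q n k S * (1 - (∑ S', q S S') / n) :=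
      mul_le_mul_of_nonneg_right (ih' S) hout1
    have hterm : ∀ S', q S' S * chainPsi (n : ℝ) k (sz S')
        = q S' S * chainPsi (n : ℝ) k (sz S)
          - (if sz S' + 1 = sz S then
              q S' S * (chainPsi (n : ℝ) k (sz S) - chainPsi (n : ℝ) k ((sz S : ℝ) - 1))
            else 0) := by
      intro S'
      by_cases hq : q S' S = 0
      · simp [hq]
      · rcases hsz S' S hq with h | h
        · have hne : ¬ (sz S' + 1 = sz S) := by omega
          rw [if_neg hne, h, sub_zero]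
        · rw [if_pos h]
          have hcast : ((sz S' : ℕ) : ℝ) = (sz S : ℝ) - 1 := by
            rw [← h]
            push_cast
            ring
          rw [hcast]
          ring
    have hsum : ∑ S', q S' S * chainPsi (n : ℝ) k (sz S')
        = chainPsi (n : ℝ) k (sz S) * ∑ S', q S' S
          - (chainPsi (n : ℝ) k (sz S) - chainPsi (n : ℝ) k ((sz S : ℝ) - 1))
            * ∑ S' ∈ univ.filter (fun S' => sz S' + 1 = sz S), q S' S := by
      rw [Finset.sum_congr rfl (fun S' _ => hterm S'), Finset.sum_sub_distrib,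
        ← Finset.sum_mul, ← Finset.sum_filter, ← Finset.sum_mul]
      ring
    have hB : chainPsi (n : ℝ) k (sz S) * ∑ S', q S' S
        - (chainPsi (n : ℝ) k (sz S) - chainPsi (n : ℝ) k ((sz S : ℝ) - 1)) / 2
        ≤ ∑ S', q S' S * chainU q n k S' := by
      have h1 := mul_le_mul_of_nonneg_left (hent S) (sub_nonneg.2 hPP')
      have h2 : ∑ S', q S' S * chainPsi (n : ℝ) k (sz S') ≤ ∑ S', q S' S * chainU q n k S' :=
        Finset.sum_le_sum (fun S' _ => mul_le_mul_of_nonneg_left (ih' S') (hq0 S' S))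
      rw [hsum] at h2
      linarith
    have h1n : (0 : ℝ) ≤ 1 / (n : ℝ) := by positivity
    have hC := mul_le_mul_of_nonneg_left hB h1n
    have hident : chainPsi (n : ℝ) k (sz S) * (1 - (∑ S', q S S') / (n : ℝ))
        + 1 / (n : ℝ) * (chainPsi (n : ℝ) k (sz S) * ∑ S', q S' S
          - (chainPsi (n : ℝ) k (sz S) - chainPsi (n : ℝ) k ((sz S : ℝ) - 1)) / 2)
        = chainPsi (n : ℝ) k (sz S) * (1 + ((sz S : ℝ) - n / 2) / (n : ℝ) ^ 2)
          - 1 / (2 * (n : ℝ)) * (chainPsi (n : ℝ) k (sz S)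
            - chainPsi (n : ℝ) k ((sz S : ℝ) - 1)) := by
      have h3 : (∑ S', q S' S) = (∑ S', q S S') + ((sz S : ℝ) - n / 2) / n := by
        linarith [hbal S]
      rw [h3]
      field_simp
      ring
    linarith

theorem chain_drain {Ω : Type} [Fintype Ω] [DecidableEq Ω] (q : Ω → Ω → ℝ) (f : Ω → ℝ) (N : ℝ)
    (hN : 0 < N) (hq0 : ∀ S S', 0 ≤ q S S') (hf : ∀ S S', q S S' ≠ 0 → f S < f S')
    (hout : ∀ S, ∑ S', q S S' ≤ N) (x : ℝ) (k : ℕ) :
    ∑ S ∈ univ.filter (fun S => f S ≤ x), chainU q N (k + 1) S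
      ≤ ∑ S ∈ univ.filter (fun S => f S ≤ x), chainU q N k S
        - 1 / N * ∑ S ∈ univ.filter (fun S => f S = x), chainU q N k S * ∑ S', q S S' := by
  have hu := chainU_nonneg q N hN hq0 hout k
  have hexp : ∀ S, chainU q N (k + 1) S = chainU q N k S
      - 1 / N * (chainU q N k S * ∑ S', q S S')
      + 1 / N * ∑ S', q S' S * chainU q N k S' := by
    intro S
    rw [chainU_succ]
    ring
  rw [Finset.sum_congr rfl (fun S _ => hexp S), Finset.sum_add_distrib, Finset.sum_sub_distrib,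
    ← Finset.mul_sum, ← Finset.mul_sum]
  have hin : ∑ S ∈ univ.filter (fun S => f S ≤ x), ∑ S', q S' S * chainU q N k S'
      ≤ ∑ S' ∈ univ.filter (fun S' => f S' < x), chainU q N k S' * ∑ S, q S' S := by
    rw [Finset.sum_comm, Finset.sum_filter (s := univ) (p := fun S' => f S' < x)]
    apply Finset.sum_le_sum
    intro S' _
    by_cases h : f S' < x
    · rw [if_pos h, Finset.mul_sum]
      calc ∑ S ∈ univ.filter (fun S => f S ≤ x), q S' S * chainU q N k S'
          ≤ ∑ S, q S' S * chainU q N k S' :=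
            Finset.sum_le_sum_of_subset_of_nonneg (Finset.filter_subset _ _)
              (fun S _ _ => mul_nonneg (hq0 S' S) (hu S'))
        _ = ∑ S, chainU q N k S' * q S' S := Finset.sum_congr rfl (fun S _ => mul_comm _ _)
    · rw [if_neg h]
      apply le_of_eq
      apply Finset.sum_eq_zero
      intro S hS
      have hS' : f S ≤ x := (Finset.mem_filter.1 hS).2
      have hq : q S' S = 0 := by
        by_contra hne
        have h1 := hf S' S hne
        linarith [not_lt.1 h]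
      rw [hq, zero_mul]
  have hsplit : ∑ S ∈ univ.filter (fun S => f S ≤ x), chainU q N k S * ∑ S', q S S'
      = ∑ S ∈ univ.filter (fun S => f S < x), chainU q N k S * ∑ S', q S S'
        + ∑ S ∈ univ.filter (fun S => f S = x), chainU q N k S * ∑ S', q S S' := by
    rw [Finset.sum_filter, Finset.sum_filter, Finset.sum_filter, ← Finset.sum_add_distrib]
    apply Finset.sum_congr rfl
    intro S _
    rcases lt_trichotomy (f S) x with h | h | h
    · rw [if_pos h.le, if_pos h, if_neg h.ne, add_zero]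
    · rw [if_pos h.le, if_neg (by rw [h]; exact lt_irrefl x), if_pos h, zero_add]
    · rw [if_neg (not_le.2 h), if_neg (not_lt.2 h.le), if_neg h.ne', add_zero]
  have h1N : 0 ≤ 1 / N := by positivity
  have h2 := mul_le_mul_of_nonneg_left hin h1N
  rw [hsplit]
  linarith

/-- SS-1: the abstract lazy chain lemma. -/
theorem chain_level {Ω : Type} [Fintype Ω] [DecidableEq Ω] (q : Ω → Ω → ℝ) (f : Ω → ℝ)
    (sz : Ω → ℕ) (n : ℕ) (hn : 16 ≤ n)
    (hq0 : ∀ S S', 0 ≤ q S S') (hf : ∀ S S', q S S' ≠ 0 → f S < f S')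
    (hsz : ∀ S' S, q S' S ≠ 0 → sz S' = sz S ∨ sz S' + 1 = sz S)
    (hent : ∀ S, ∑ S' ∈ univ.filter (fun S' => sz S' + 1 = sz S), q S' S ≤ 1 / 2)
    (hbal : ∀ S, ∑ S', q S' S - ∑ S', q S S' = ((sz S : ℝ) - n / 2) / n)
    (hout : ∀ S, ∑ S', q S S' ≤ n) (hszn : ∀ S, sz S ≤ n) (x : ℝ) :
    Real.sqrt n * ∑ S ∈ univ.filter (fun S => f S = x ∧ (n : ℝ) / 2 - Real.sqrt n ≤ sz S),
      ∑ S', q S S' ≤ 10 * Fintype.card Ω := by
  have hN : (16 : ℝ) ≤ n := by exact_mod_cast hn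
  have hN0 : (0 : ℝ) < n := by linarith
  have hs4 := sqrt_ge_four hN
  have hs0 : (0 : ℝ) ≤ Real.sqrt n := by linarith
  have hu := chainU_nonneg q (n : ℝ) hN0 hq0 hout
  have hW0 : 0 ≤ ∑ S ∈ univ.filter (fun S => f S = x ∧ (n : ℝ) / 2 - Real.sqrt n ≤ sz S),
      ∑ S', q S S' :=
    Finset.sum_nonneg (fun S _ => Finset.sum_nonneg (fun S' _ => hq0 S S'))
  have hstep : ∀ k : ℕ, (k : ℝ) ≤ (n : ℝ) * Real.sqrt n →
      (∑ S ∈ univ.filter (fun S => f S = x ∧ (n : ℝ) / 2 - Real.sqrt n ≤ sz S),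
        ∑ S', q S S') / 5
      ≤ ∑ S ∈ univ.filter (fun S => f S = x), chainU q (n : ℝ) k S * ∑ S', q S S' := by
    intro k hk
    have hsub : univ.filter (fun S => f S = x ∧ (n : ℝ) / 2 - Real.sqrt n ≤ sz S)
        ⊆ univ.filter (fun S => f S = x) := by
      intro S hS
      rw [Finset.mem_filter] at hS
      exact Finset.mem_filter.2 ⟨Finset.mem_univ _, hS.2.1⟩
    calc (∑ S ∈ univ.filter (fun S => f S = x ∧ (n : ℝ) / 2 - Real.sqrt n ≤ sz S),
          ∑ S', q S S') / 5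
        = ∑ S ∈ univ.filter (fun S => f S = x ∧ (n : ℝ) / 2 - Real.sqrt n ≤ sz S),
            (1 / 5) * ∑ S', q S S' := by
          rw [← Finset.mul_sum]
          ring
      _ ≤ ∑ S ∈ univ.filter (fun S => f S = x ∧ (n : ℝ) / 2 - Real.sqrt n ≤ sz S),
            chainU q (n : ℝ) k S * ∑ S', q S S' := by
          apply Finset.sum_le_sum
          intro S hS
          rw [Finset.mem_filter] at hS
          have h1 := chainU_ge q sz n hn hq0 hsz hent hbal hout hszn k hk S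
          have h2 := chainPsi_fifth hN k hk (sz S) hS.2.2
          exact mul_le_mul_of_nonneg_right (le_trans h2 h1)
            (Finset.sum_nonneg (fun S' _ => hq0 S S'))
      _ ≤ ∑ S ∈ univ.filter (fun S => f S = x), chainU q (n : ℝ) k S * ∑ S', q S S' :=
          Finset.sum_le_sum_of_subset_of_nonneg hsub
            (fun S _ _ => mul_nonneg (hu k S) (Finset.sum_nonneg (fun S' _ => hq0 S S')))
  have htel : ∀ K : ℕ, (∀ k, k < K → (k : ℝ) ≤ (n : ℝ) * Real.sqrt n) →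
      ∑ S ∈ univ.filter (fun S => f S ≤ x), chainU q (n : ℝ) K S
        + (K : ℝ) * (1 / (n : ℝ) *
          ((∑ S ∈ univ.filter (fun S => f S = x ∧ (n : ℝ) / 2 - Real.sqrt n ≤ sz S),
            ∑ S', q S S') / 5))
        ≤ ∑ S ∈ univ.filter (fun S => f S ≤ x), chainU q (n : ℝ) 0 S := by
    intro K
    induction K with
    | zero =>
      intro _
      simp
    | succ K ih =>
      intro hK
      have h1 := ih (fun k hk => hK k (Nat.lt_succ_of_lt hk))
      have h2 := chain_drain q f (n : ℝ) hN0 hq0 hf hout x K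
      have h3 := hstep K (hK K (Nat.lt_succ_self K))
      have h4 := mul_le_mul_of_nonneg_left h3 (by positivity : (0 : ℝ) ≤ 1 / (n : ℝ))
      push_cast
      linarith
  have hKge : (n : ℝ) * Real.sqrt n ≤ ((⌊(n : ℝ) * Real.sqrt n⌋₊ + 1 : ℕ) : ℝ) := by
    push_cast
    exact (Nat.lt_floor_add_one ((n : ℝ) * Real.sqrt n)).le
  have hKk : ∀ k, k < ⌊(n : ℝ) * Real.sqrt n⌋₊ + 1 → (k : ℝ) ≤ (n : ℝ) * Real.sqrt n := by
    intro k hk
    have h1 : k ≤ ⌊(n : ℝ) * Real.sqrt n⌋₊ := by omega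
    exact le_trans (Nat.cast_le.2 h1) (Nat.floor_le (by positivity))
  have h := htel (⌊(n : ℝ) * Real.sqrt n⌋₊ + 1) hKk
  have hm0 : ∑ S ∈ univ.filter (fun S => f S ≤ x), chainU q (n : ℝ) 0 S
      ≤ (Fintype.card Ω : ℝ) := by
    simp only [chainU_zero, Finset.sum_const, nsmul_eq_mul, mul_one]
    exact_mod_cast Finset.card_le_univ _
  have hmK : 0 ≤ ∑ S ∈ univ.filter (fun S => f S ≤ x),
      chainU q (n : ℝ) (⌊(n : ℝ) * Real.sqrt n⌋₊ + 1) S :=
    Finset.sum_nonneg (fun S _ => hu _ S)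
  have h6 := mul_le_mul_of_nonneg_right hKge
    (by positivity : (0 : ℝ) ≤ 1 / (n : ℝ) *
      ((∑ S ∈ univ.filter (fun S => f S = x ∧ (n : ℝ) / 2 - Real.sqrt n ≤ sz S),
        ∑ S', q S S') / 5))
  have h7 : (n : ℝ) * Real.sqrt n * (1 / (n : ℝ) *
      ((∑ S ∈ univ.filter (fun S => f S = x ∧ (n : ℝ) / 2 - Real.sqrt n ≤ sz S),
        ∑ S', q S S') / 5))
      = Real.sqrt n * (∑ S ∈ univ.filter (fun S => f S = x ∧ (n : ℝ) / 2 - Real.sqrt n ≤ sz S),
        ∑ S', q S S') / 5 := by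
    field_simp
  have hc : (0 : ℝ) ≤ Fintype.card Ω := Nat.cast_nonneg _
  rw [h7] at h6
  linarith

end Vale.Agent.Lib.P160.H34
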